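import Vale.Agent.P355.H387.Bridge
import Vale.Agent.P355.H693W.Pat

/-! Packed differences of placed flags. -/

namespace Vale.Agent.P355.H637

open Finset Vale.Agent.P355 H138 H693.Inj H387

theorem biasC_eq : biasC = ofD 49 fun _ => 32 := by decide +kernel

/-- **Difference of packed matrices**: `X + 32…32 - Y` encodes `G - H`. -/
theorem Enc.sub {X Y : ℕ} {G H : NM} (hX : Enc X G) (hY : Enc Y H)
    (hb : ∀ i < 7, ∀ j < 7, |G i j - H i j| ≤ 31) :
    Enc (Nat.sub (Nat.add X biasC) Y) (fun i j => G i j - H i j) := by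
  refine ⟨?_, hb⟩
  have h1 : ofD 49 (df fun i j => G i j - H i j) + ofD 49 (df H) = ofD 49 (df G) + biasC := by
    rw [biasC_eq, ofD_addf, ofD_addf]
    refine ofD_congr fun i hi => ?_
    have e1 := df_cast G hX.2 i hi
    have e2 := df_cast H hY.2 i hi
    have e3 := df_cast (fun i j => G i j - H i j) hb i hi
    omega
  show X + biasC - Y = _
  rw [hX.1, hY.1, ← h1]
  omega

/-- **Sum of packed matrices**: `X + Y - 32…32` encodes `G + H`. -/
theorem Enc.add {X Y : ℕ} {G H : NM} (hX : Enc X G) (hY : Enc Y H)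
    (hb : ∀ i < 7, ∀ j < 7, |G i j + H i j| ≤ 31) :
    Enc (Nat.sub (Nat.add X Y) biasC) (fun i j => G i j + H i j) := by
  refine ⟨?_, hb⟩
  have h1 : ofD 49 (df fun i j => G i j + H i j) + biasC = ofD 49 (df G) + ofD 49 (df H) := by
    rw [biasC_eq, ofD_addf, ofD_addf]
    refine ofD_congr fun i hi => ?_
    have e1 := df_cast G hX.2 i hi
    have e2 := df_cast H hY.2 i hi
    have e3 := df_cast (fun i j => G i j + H i j) hb i hi
    omega
  show X + Y - biasC = _
  rw [hX.1, hY.1, ← h1]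
  omega

/-- The same from the bound `15` on both matrices. -/
theorem Enc.sub15 {X Y : ℕ} {G H : NM} (hX : Enc X G) (hY : Enc Y H)
    (hG : ∀ i < 7, ∀ j < 7, |G i j| ≤ 15) (hH : ∀ i < 7, ∀ j < 7, |H i j| ≤ 15) :
    Enc (Nat.sub (Nat.add X biasC) Y) (fun i j => G i j - H i j) := by
  refine Enc.sub hX hY fun i hi j hj => ?_
  have h1 := abs_le.1 (hG i hi j hj)
  have h2 := abs_le.1 (hH i hi j hj)
  exact abs_le.2 ⟨by linarith, by linarith⟩

/-- Placed matrices are permuted matrices: if `a`, `c` are the values of the permutations `g`, `k`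
(inverses `g'`, `k'`) on `0..3` and `G` lives on `0..3`, then `GP a c G` is `G` read off through the
inverse permutations. -/
theorem GP_perm {G : NM} (hG : ∀ i < 7, ∀ j < 7, (4 ≤ i ∨ 4 ≤ j) → G i j = 0) {a c g g' k k' : ℕ → ℕ}
    (hg : H387.Pm g g') (hk : H387.Pm k k') (ha : ∀ i < 4, a i = g i) (hc : ∀ i < 4, c i = k i)
    {i j : ℕ} (hi : i < 7) (hj : j < 7) : GP a c G i j = G (g' i) (k' j) := by
  have hi' := hg.lt' i hi
  have hj' := hk.lt' j hj
  unfold GP
  by_cases h4 : g' i < 4
  · rw [Finset.sum_eq_single (g' i)]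
    · by_cases h5 : k' j < 4
      · rw [Finset.sum_eq_single (k' j)]
        · rw [if_pos]
          exact ⟨by rw [ha _ h4, hg.gg' i hi], by rw [hc _ h5, hk.gg' j hj]⟩
        · intro q hq hne
          rw [if_neg]
          rintro ⟨_, h7⟩
          rw [hc _ (mem_range.1 hq)] at h7
          apply hne
          rw [← h7, hk.gg _ (by have := mem_range.1 hq; omega)]
        · intro h; exact absurd (mem_range.2 h5) h
      · rw [hG _ hi' _ hj' (Or.inr (not_lt.1 h5))]
        refine Finset.sum_eq_zero fun q hq => ?_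
        rw [if_neg]
        rintro ⟨_, h7⟩
        rw [hc _ (mem_range.1 hq)] at h7
        apply h5
        rw [← h7, hk.gg _ (by have := mem_range.1 hq; omega)]
        exact mem_range.1 hq
    · intro p hp hne
      refine Finset.sum_eq_zero fun q _ => ?_
      rw [if_neg]
      rintro ⟨h6, _⟩
      rw [ha _ (mem_range.1 hp)] at h6
      apply hne
      rw [← h6, hg.gg _ (by have := mem_range.1 hp; omega)]
    · intro h; exact absurd (mem_range.2 h4) h
  · rw [hG _ hi' _ hj' (Or.inl (not_lt.1 h4))]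
    refine Finset.sum_eq_zero fun p hp => Finset.sum_eq_zero fun q _ => ?_
    rw [if_neg]
    rintro ⟨h6, _⟩
    rw [ha _ (mem_range.1 hp)] at h6
    apply h4
    rw [← h6, hg.gg _ (by have := mem_range.1 hp; omega)]
    exact mem_range.1 hp

/-- **Placed flags, packed**: block move and digit move of the packed flag. -/
theorem Enc.place {X : ℕ} {G : NM} (h : Enc X G)
    (hG : ∀ i < 7, ∀ j < 7, (4 ≤ i ∨ 4 ≤ j) → G i j = 0) {a c g g' k k' : ℕ → ℕ}
    (hg : H387.Pm g g') (hk : H387.Pm k k') (ha : ∀ i < 4, a i = g i) (hc : ∀ i < 4, c i = k i)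
    (s t : ℕ) (hs : ∀ p < 7, f9 s p = 42 * g p) (ht : ∀ p < 7, f6 t p = 6 * k p) :
    Enc (dp (bp X s) t) (GP a c G) := by
  have h1 := (h.bp s hg hs).dp t hk ht
  refine ⟨?_, fun i hi j hj => ?_⟩
  · rw [h1.1]
    refine ofD_congr fun i hi => ?_
    unfold df
    rw [GP_perm hG hg hk ha hc (show i / 7 < 7 by omega) (show i % 7 < 7 by omega)]
  · rw [GP_perm hG hg hk ha hc hi hj]
    exact h.2 _ (hg.lt' i hi) _ (hk.lt' j hj)

end Vale.Agent.P355.H637
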