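import Vale.Agent.P355.H387.RowChk

/-! Hierarchical merging of sparse lists. -/

namespace Vale.Agent.P355.H637

open Vale.Agent.P355.H387 (CT evL evL_append ckMerge ckMerge_sound)
open Vale.Agent.P355.H138
open Vale.Agent.P355.H693.Inj

/-- the sparse lists `L` and `m` have the same value. -/
def MG (ct : CT) (L m : List (ℕ × ℕ)) : Prop :=
  ∀ F : Bool → Mt → ℝ, evL F ct L = evL F ct m

variable {ct : CT} {L L' m m' : List (ℕ × ℕ)}

/-- one checked merge. -/
theorem MG.of_ck (h : ckMerge ct [L] m = true) : MG ct L m := fun F => by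
  have h1 := ckMerge_sound (F := F) h
  rw [List.map_cons, List.map_nil, List.sum_cons, List.sum_nil, add_zero] at h1
  exact h1

theorem MG.app (h : MG ct L m) (h' : MG ct L' m') : MG ct (L ++ L') (m ++ m') := fun F => by
  rw [evL_append, evL_append, h F, h' F]

theorem MG.trans (h : MG ct L m) (h' : MG ct m m') : MG ct L m' := fun F => (h F).trans (h' F)

end Vale.Agent.P355.H637
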