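import Vale.Agent.P355.H129V.Sos
import Vale.Agent.P355.H693.InjBase

/-! Chunks of rows of the checked blocks: glueing and merging. -/

namespace Vale.Agent.P355.H637

open Vale.Agent.P355
open Vale.Agent.P355.H129 (psdCk)
open Vale.Agent.P355.H129V (Fg okF RT Rvs ckV ckV_sound Rvs_append Rvs_nonneg U0s U1s U2s U3s)
open Vale.Agent.P355.H387 (CT Cls evL evL_append ckMerge ckMerge_sound)
open Vale.Agent.P355.H693.Inj (riv Mt cls_riv)

/-- the rows `T`, starting with row `i`, have the value of the sparse list `out`. -/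
def CV (ct : CT) (fl : List (Fg × Fg)) (w oU i : ℕ) (T : List RT) (out : List (ℕ × ℕ)) : Prop :=
  ∀ F : Bool → Mt → ℝ, Cls F → Rvs F w oU fl T (fl.drop i) i = evL F ct out

variable {ct : CT} {fl : List (Fg × Fg)} {w oU i j : ℕ} {T T' : List RT}
  {o o' m : List (ℕ × ℕ)}

/-- one chunk. -/
theorem CV.of_ck (hfl : fl.all okF = true) (h : ckV ct fl w oU i T o = true) :
    CV ct fl w oU i T o := fun _ hF => ckV_sound hF hfl h

/-- two chunks. -/
theorem CV.app (h : CV ct fl w oU i T o) (hj : i + T.length = j) (h' : CV ct fl w oU j T' o') :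
    CV ct fl w oU i (T ++ T') (o ++ o') := fun F hF => by
  rw [Rvs_append w oU fl T T' i j hj, evL_append, h F hF, h' F hF]

/-- merging. -/
theorem CV.mrg (h : CV ct fl w oU i T o) (hm : ckMerge ct [o] m = true) :
    CV ct fl w oU i T m := fun F hF => by
  have h1 := ckMerge_sound (F := F) hm
  rw [List.map_cons, List.map_nil, List.sum_cons, List.sum_nil, add_zero] at h1
  rw [← h1]
  exact h F hF

/-- **positivity** at every point. -/
theorem CV.nonneg {n : ℕ}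
    {bu0 bl0 v0 c0 o0 δ0 bu1 bl1 v1 c1 o1 δ1 bu2 bl2 v2 c2 o2 δ2 bu3 bl3 v3 c3 o3 δ3 : ℕ}
    {Cs0 Cs1 Cs2 Cs3 : List ℕ} (h : CV ct fl w oU 0 T o)
    (k0 : psdCk w bu0 bl0 v0 n c0 o0 oU δ0 (U0s T) Cs0 = true)
    (k1 : psdCk w bu1 bl1 v1 n c1 o1 oU δ1 (U1s T) Cs1 = true)
    (k2 : psdCk w bu2 bl2 v2 n c2 o2 oU δ2 (U2s T) Cs2 = true)
    (k3 : psdCk w bu3 bl3 v3 n c3 o3 oU δ3 (U3s T) Cs3 = true)
    (x : Fin 7 → Fin 7 → ℂ) (hx : H138.Base x) : 0 ≤ evL (riv x) ct o := by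
  rw [← h (riv x) (cls_riv hx)]
  exact Rvs_nonneg (cls_riv hx) (H693W.riv_sqF hx) k0 k1 k2 k3

end Vale.Agent.P355.H637
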